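import Crest.Agent.X212.Rdc90.Main

/-!
# Row 212, P-TAIL (helper47): exponential decay on necks with an explicit rate
-/

set_option autoImplicit false
set_option linter.unusedSectionVars false
noncomputable section
open scoped Manifold ContDiff Topology InnerProductSpace
open MeasureTheory Set Function Filter Real

namespace Crest.Agent.X212.Tl47
open An Nd18 Cyf70 Rdc90
open Tmp64 (Eq0 AdmOn)
open Neck67 (Lb)
open Bki64 (Cl win)

variable {E3 : Type} [NormedAddCommGroup E3] [NormedSpace ℝ E3] [FiniteDimensional ℝ E3]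
  [MeasurableSpace E3] [BorelSpace E3]
  {H3 : Type} [TopologicalSpace H3] {I3 : ModelWithCorners ℝ E3 H3} [I3.Boundaryless]
  {Y : Type} [TopologicalSpace Y] [ChartedSpace H3 Y] [IsManifold I3 ∞ Y] [T2Space Y]
  [MeasurableSpace Y] [BorelSpace Y] [SecondCountableTopology Y] [CompactSpace Y]
  {κ : Type} [Fintype κ] {lam : Type} [Fintype lam]

section defs
variable (D : YD I3 Y κ lam) (β : YC Y κ lam)

/-- the Lojasiewicz inequality with the constant `K` -/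
def LojK (K : ℝ) : Prop := ∃ j : ℕ, ∃ η > 0, ∀ a, Fo D β a → (∀ k, D.F.CB j (a k) η) →
  ∫ y, ∑ i, ∑ k, ‖By D β a i k y‖ ^ 2 ∂D.F.μ ≤ K * ∫ y, ∑ k, ‖Ly D β a k y‖ ^ 2 ∂D.F.μ

/-- decay of the slice integrals with the rate `l` -/
def CvL (l : ℝ) : Prop := ∃ η > 0, ∃ (j : ℕ) (C : ℝ), 0 ≤ C ∧ ∀ α Φ, Sv D β α Φ →
  ∀ (J : Set ℝ) (ε p q : ℝ), IsOpen J → Icc p q ⊆ J → 0 ≤ ε → ε ≤ η →
    Eqs D (zc β α Φ) (univ ×ˢ J) → Lb D.Z.toPre (univ ×ˢ J) j α ε →
    Lb D.Z.toPre (univ ×ˢ J) j Φ ε → ∀ t ∈ Icc p q, GF D (zc β α Φ) t + GP D (zc β α Φ) t ≤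
      C * ε ^ 2 * (exp (-l * (t - p)) + exp (-l * (q - t)))

/-- decay on bounded gaps with the rate `d` -/
def DR (d : ℝ) : Prop := ∀ (k : ℕ), ∀ B > 0, ∃ η > 0,
  ∀ r (c : Cfg (Y × ℝ) (Option κ) lam r) (p q : ℝ), p ≤ q → (∀ s ∈ Icc p q, Nw D β c s η) →
  ∃ h, Har D β h ∧ (∀ i, D.F.CB k (h i) B) ∧ D.Adm (bh β h 0) ∧ Flt D (bh β h 0) ∧
    ∃ u, ∀ s ∈ Icc p q, Cl D.Z c (cy (bh β h 0)) u (fun _ => 1) (win Y s 1) k
      (B * exp (-d * min (s - p) (q - s)))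

end defs

variable {D : YD I3 Y κ lam} {β : YC Y κ lam}

open An.Pre Sob92 Wz78 Rd78 in
theorem cvl (H : Bs D β) {c₀ K : ℝ} (hc : 0 < c₀) (hP : PS D c₀) (hL : LojK D β K) :
    CvL D β √(min (min (max K 1)⁻¹ c₀) 2) := by
  obtain ⟨j, η, hη, hL⟩ := hL
  obtain ⟨C₁, h₁, hB⟩ := Cvb14.cvb _ _ _ _ (bas _ _ _ _) D β H
  obtain ⟨C₂, h₂⟩ := lb_Fg H.adm H.flat 0
  have hK : 0 < max K 1 := lt_max_of_lt_right one_pos
  set m := min (min (max K 1)⁻¹ c₀) 2 with hm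
  have m0 : 0 < m := by positivity
  set v := D.F.μ.real univ
  have v0 : 0 ≤ v := measureReal_nonneg
  let n : ℝ := Fintype.card κ
  refine ⟨min (min η 1) (m / (C₁ + 1)), by positivity, max j 1,
    (C₁ + 1) * ((n * (n * C₂ ^ 2) + 1) * v), by positivity, ?_⟩
  intro α Φ S J ε p q hJ hs h0 hε hE hα hΦ t ht
  have hO : IsOpen (univ ×ˢ J : Set (Y × ℝ)) := isOpen_univ.prod hJ
  have e1 : ε ≤ 1 := hε.trans ((min_le_left _ _).trans (min_le_right _ _))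
  have e2 : C₁ * ε ≤ m := by
    have := (le_div_iff₀ (by positivity)).1 (hε.trans (min_le_right _ _))
    nlinarith
  have a1 := hα.of_le (le_max_right j 1)
  obtain ⟨b1, b2, b3⟩ := hB α Φ S _ rfl
  obtain ⟨p1, p2, p3⟩ := cvp I3 Y κ lam D c₀ H.ok hP _ (adm_zc H.adm S)
  replace b3 := b3 J ε hJ e1 hE a1 (hΦ.of_le (Nat.zero_le _))
  replace p3 := p3 J hJ hE
  set GB := fun t => ∫ y, ∑ i, ∑ k, ‖By D β (sl β α t) i k y‖ ^ 2 ∂D.F.μ with hGB
  have g1 : ∀ s, 0 ≤ GB s := fun s => by positivity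
  have g2 : ∀ s, 0 ≤ GP D (zc β α Φ) s := fun s => integral_nonneg fun y => sq_nonneg _
  have g3 : ∀ s ∈ J, GB s + GP D (zc β α Φ) s ≤ (n * (n * C₂ ^ 2) + 1) * v * ε ^ 2 := fun s hs => by
    have k1 : GB s ≤ n * (n * (C₂ * ε) ^ 2) * v := int_le D.F fun y => ⟨by positivity, by
      have := (h₂ α Φ S _ ε hO e1 a1).le (x := (y, s)) ⟨trivial, hs⟩
      simp only [n, ← nsmul_eq_mul, ← Finset.card_univ, ← Finset.sum_const]
      refine Finset.sum_le_sum fun i _ => Finset.sum_le_sum fun k _ => ?_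
      rw [← Fg_sl H.adm H.flat S]
      exact pow_le_pow_left₀ (norm_nonneg _) ((PiLp.norm_apply_le _ _).trans this) 2⟩
    have k2 : GP D (zc β α Φ) s ≤ ε ^ 2 * v := int_le D.F fun y => ⟨sq_nonneg _, by
      refine pow_le_pow_left₀ (norm_nonneg _) (le_of_eq_of_le ?_ (hΦ.le (x := (y, s))
        ⟨trivial, hs⟩)) 2
      exact congrArg norm ((congrArg (· + Φ (y, s)) (H.zr y)).trans (zero_add _))⟩
    linarith
  have hpq := ht.1.trans ht.2
  have c := cvx_le (l := √m) (fun s _ => ((b1 s).hasDerivAt.add (p1 s).hasDerivAt))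
    (fun s _ => ((b2 s).hasDerivAt.add (p2 s).hasDerivAt)) (fun s hs' => by
      have k1 := (b3 s (hs hs')).2
      have k2 := p3 s (hs hs')
      have k3 : GB s ≤ _ := hL _ (fo_sl S s) fun k => CB_mono (cb_slc
        (fun y => mk_mem_prod (mem_univ y) (hs hs')) (sm_cp S _) (lb_cp hO h0 (hα.of_le (le_max_left j 1)) (some k)))
        (hε.trans ((min_le_left _ _).trans (min_le_left _ _)))
      set L := ∫ y, ∑ k, ‖Ly D β (sl β α s) k y‖ ^ 2 ∂D.F.μ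
      have L0 : 0 ≤ L := by positivity
      have k4 : m * GB s ≤ L := by
        have := mul_le_mul ((min_le_left _ _).trans (min_le_left _ _) : m ≤ (max K 1)⁻¹)
          (k3.trans (mul_le_mul_of_nonneg_right (le_max_left K 1) L0)) (g1 s) (by positivity)
        rwa [inv_mul_cancel_left₀ hK.ne'] at this
      have k5 := mul_le_mul_of_nonneg_right
        ((min_le_left _ _).trans (min_le_right _ _) : m ≤ c₀) (g2 s)
      have k6 : 0 ≤ NP D (zc β α Φ) s := integral_nonneg fun y => by positivity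
      have k7 := mul_le_mul_of_nonneg_right (e2.trans (min_le_right _ _)) k6
      have k8 := mul_le_mul_of_nonneg_right e2 (add_nonneg (g1 s) (g2 s))
      rw [sq_sqrt m0.le]
      simp only [Pi.add_apply]
      linarith) (add_nonneg (g1 p) (g2 p)) (add_nonneg (g1 q) (g2 q)) ht
  simp only [Pi.add_apply] at c
  have k1 := (b3 t (hs ht)).1
  have k2 := mul_le_mul_of_nonneg_right (g3 p (hs ⟨le_rfl, hpq⟩)) (exp_pos (-√m * (t - p))).le
  have k3 := mul_le_mul_of_nonneg_right (g3 q (hs ⟨hpq, le_rfl⟩)) (exp_pos (-√m * (q - t))).le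
  have k4 := mul_le_mul_of_nonneg_left (c.trans (add_le_add k2 k3)) (by positivity : 0 ≤ C₁ + 1)
  linarith [g1 t]

open Bki64 Pj41 Rd3 in
theorem dr_of (hb : Bs D β) (hc : HC D β) {l : ℝ} (hl : 0 < l) (cv : CvL D β l) :
    DR D β (l / 4) := by
  obtain ⟨-, b2, b3, b4, b5, b6⟩ := Rd78.bas _ _ _ _ D β hb.ok hb.adm
  obtain ⟨η₁, hη₁, j₁, C₁, hC₁, cv⟩ := cv
  have hl4 : 0 < l / 4 := by positivity
  intro k B hB
  obtain ⟨j₃, K₃, hK₃, tm⟩ := Cay24.tmp D β hb.ok hb.adm hb.zr k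
  obtain ⟨j₄, K₄, hK₄, nr⟩ := near (Rd78.bas _ _ _ _) D β hb hc k
  obtain ⟨η₄, hη₄, nr⟩ := nr B hB
  obtain ⟨j₅, K₅, hK₅, iF⟩ := Ipl9.ipl D.F hb.dim.le (Fm (Option κ × Option κ) β.m.A) (j₃ + j₄)
  obtain ⟨j₆, K₆, hK₆, iP⟩ := Ipl9.ipl D.F hb.dim.le β.m.V (j₃ + j₄)
  obtain ⟨C₅, b5⟩ := b5 hb.flat j₅
  obtain ⟨A, a1, a2, a3⟩ : ∃ A : ℝ, 1 ≤ A ∧ C₁ ≤ A ^ 2 ∧ C₅ ≤ A :=
    ⟨1 + C₁ + |C₅|, by linarith [abs_nonneg C₅], by nlinarith [abs_nonneg C₅],
      by linarith [le_abs_self C₅]⟩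
  obtain ⟨ε, ⟨e1, e2, e3, e4, e5, e6⟩, e0⟩ := (((small 1 hη₁).and ((small 1 one_pos).and
    ((small 1 hη₄).and ((small (2 * ((K₅ + K₆ + 1) * A)) one_pos).and
    ((small (2 * ((K₅ + K₆ + 1) * A)) hl4).and (small (2 * (K₄ + 2 ^ k * K₄ * (2 ^ k * K₄ + 1) *
      (K₃ * (1 + 1 / (l / 4)))) * ((K₅ + K₆ + 1) * A)) hB)))))).and self_mem_nhdsWithin).exists
  replace e0 : 0 < ε := e0
  rw [one_mul] at e1 e2 e3
  obtain ⟨η, hη, w⟩ := winStmt D β hb.ok hb.adm hb.zr (j₁ + j₃ + j₄ + j₅ + j₆ + 1) ε e0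
  refine ⟨η, hη, fun r c p q hpq hN => ?_⟩
  obtain ⟨α, Φ, u, sv, eq, lα, lΦ, -, hu⟩ := w r c p q hpq hN
  have ho : IsOpen (univ ×ˢ Ioo (p - 4) (q + 4) : Set (Y × ℝ)) := isOpen_univ.prod isOpen_Ioo
  have sub : ∀ s ∈ Icc p q, ∀ L ≤ 4, win Y s L ⊆ univ ×ˢ Ioo (p - 4) (q + 4) := fun s hs L hL =>
    prod_mono_right (Ioo_subset_Ioo (by linarith [hs.1]) (by linarith [hs.2]))
  obtain ⟨z1, z2, z3⟩ := b3 α Φ sv
  have cv := cv α Φ sv (Ioo (p - 4) (q + 4)) ε (p - 3) (q + 3) isOpen_Ioo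
    (Icc_subset_Ioo (by linarith) (by linarith)) e0.le e1 eq (lα.of_le (by omega))
    (lΦ.of_le (by omega))
  obtain ⟨c₀, hc₀⟩ : ∃ c₀, c₀ = (K₅ + K₆ + 1) * A * ε := ⟨_, rfl⟩
  have p0 : 0 < c₀ := by rw [hc₀]; positivity
  have key : ∀ s ∈ Icc p q,
      Lb D.Z.toPre (win Y s 1) (j₃ + j₄) ((zc β α Φ).m.Fg D.Z (zc β α Φ).W)
        (c₀ * wt (l / 4) p q s) ∧ Lb D.Z.toPre (win Y s 1) (j₃ + j₄) Φ (c₀ * wt (l / 4) p q s) :=
    fun s hs => by
      have w0 := wt_pos (l / 4) p q s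
      have h1 : ∀ t ∈ Ioo (s - 2) (s + 2), GF D (zc β α Φ) t + GP D (zc β α Φ) t ≤
          (A * ε * wt (l / 4) p q s ^ 2) ^ 2 := fun t ht =>
        (cv t ⟨by linarith [ht.1, hs.1], by linarith [ht.2, hs.2]⟩).trans (by
          rw [mul_pow, mul_pow]
          gcongr
          exact wt_four hl ht)
      have h2 : √(A * ε * wt (l / 4) p q s ^ 2 * (A * ε)) = A * ε * wt (l / 4) p q s := by
        rw [sqrt_eq_iff_mul_self_eq_of_pos (by positivity)]; ring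
      have h3 : ∀ K, K ≤ K₅ + K₆ + 1 → K * √(A * ε * wt (l / 4) p q s ^ 2 * (A * ε)) ≤
          c₀ * wt (l / 4) p q s := fun K hK => by
        rw [h2, hc₀, mul_assoc (K₅ + K₆ + 1), mul_assoc (K₅ + K₆ + 1)]
        gcongr
      have g1 : ∀ t, 0 ≤ GF D (zc β α Φ) t := fun t => integral_nonneg fun _ => by positivity
      have g2 : ∀ t, 0 ≤ GP D (zc β α Φ) t := fun t => integral_nonneg fun _ => by positivity
      refine ⟨(iF _ s _ (A * ε) (by positivity) (by positivity) ((b5 α Φ sv _ ε (win_op s 2) e2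
        ((lα.of_le (by omega)).sub (sub s hs 2 (by norm_num)))).mono (by gcongr))
        fun t ht => (le_add_of_nonneg_right (g2 t)).trans (h1 t ht)).mono (h3 _ (by linarith)),
        (iP _ s _ (A * ε) (by positivity) (by positivity) ((lΦ.of_le (by omega)).mono'
        (sub s hs 2 (by norm_num)) (le_mul_of_one_le_left e0.le a1)) fun t ht => ?_).mono
        (h3 _ (by linarith))⟩
      refine le_trans (le_of_eq ?_) ((le_add_of_nonneg_left (g1 t)).trans (h1 t ht))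
      refine integral_congr_ae (Eventually.of_forall fun y => ?_)
      change _ = ‖β.Φ y + Φ (y, t)‖ ^ 2
      rw [hb.zr, zero_add]
  have t0 : (p + q) / 2 ∈ Icc p q := ⟨by linarith, by linarith⟩
  obtain ⟨g, hg⟩ := tm α Φ sv p q _ (fun s => c₀ * wt (l / 4) p q s) t0
    (by unfold wt; fun_prop) fun s hs => by
      have w0 := wt_pos (l / 4) p q s
      have w1 := mul_le_mul_of_nonneg_left (wt_two hl4 hs) p0.le
      refine ⟨by positivity, by linarith, (wt_int hl4 p0.le s).trans ?_,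
        (lα.of_le (by omega)).mono' (sub s hs 1 (by norm_num)) e2,
        (key s hs).2.of_le (by omega), (key s hs).1.of_le (by omega)⟩
      rw [div_le_one hl4]
      linarith
  have m0 : ∀ y : Y, (y, (p + q) / 2) ∈ win Y ((p + q) / 2) 1 := fun y =>
    ⟨trivial, by linarith, by linarith⟩
  have w0 := wt_pos (l / 4) p q ((p + q) / 2)
  obtain ⟨h, n, n1, n2, n3, n4⟩ := nr _ (z2 ((p + q) / 2)) (fun i => (b6 _ j₄ η₄).1
    (fun x => α x (some i)) _ _ ((PiLp.proj 2 (fun _ => β.m.A) (some i)).contMDiff.comp sv.sα) m0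
    (lb_ap (win_op _ 1) ((lα.of_le (by omega)).mono' (sub _ t0 1 (by norm_num)) e3) hη₄.le _))
    (c₀ * wt (l / 4) p q ((p + q) / 2)) (by positivity) fun i j => by
      rw [show By D β (sl β α ((p + q) / 2)) i j = _ from funext fun y => (z3 hb.flat y _ i j).symm]
      exact (b6 β.m.A j₄ _).1 (fun x => (zc β α Φ).m.Fg D.Z (zc β α Φ).W x (some i, some j)) _ _
        (Wz78.sm_Fg hb.ok.G z1.conn (Std94.sm_pg hb.ok.B z1.ok) _) m0
        (lb_ap (win_op _ 1) ((key _ t0).1.of_le (by omega)) (by positivity) _)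
  refine ⟨h, n1, n2, b2 h 0 n1.toFo ⟨contMDiff_const, fun x => map_zero _⟩,
    b4 hb.flat h 0 n1.toFo fun i j y => by rw [By, n1.ed, hc h n1, add_zero],
    fun x => (n x.1 ∘L g x) ∘L u x, fun s hs => ?_⟩
  have w1 := wt_pos (l / 4) p q s
  have sn : Sm I3 n := fun y => sm_slice (t := 0) (n4.iso.su _ trivial)
  refine cl_eq0 (hu.mono (sub s hs 1 (by norm_num))) ((cl_comp (hg s hs)
    (n4.mono (win_op s 1) (subset_univ _) le_rfl le_rfl)
    ((((b6 _ k K₄).2 n sn n3).sub (subset_univ _)).mono (abs_of_nonneg hK₄).le)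
    hb.adm.adm.ok.Jsq (by positivity) hK₄).mono (win_op s 1) Subset.rfl le_rfl ?_)
  obtain ⟨v1, v2⟩ := wt_le (p := p) (q := q) (s := s) hl4
  have v3 := wt_int (p := p) (q := q) hl4 p0.le s
  calc _ ≤ K₄ * (c₀ * (2 * exp (-(l / 4) * min (s - p) (q - s)))) + 2 ^ k * K₄ * (2 ^ k * K₄ + 1) *
        (K₃ * (c₀ * (2 * exp (-(l / 4) * min (s - p) (q - s))) +
          c₀ * (2 * exp (-(l / 4) * min (s - p) (q - s))) / (l / 4))) := by
        gcongr
        exact v3.trans (by gcongr)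
    _ = 2 * (K₄ + 2 ^ k * K₄ * (2 ^ k * K₄ + 1) * (K₃ * (1 + 1 / (l / 4)))) * ((K₅ + K₆ + 1) * A) *
        ε * exp (-(l / 4) * min (s - p) (q - s)) := by rw [hc₀]; ring
    _ ≤ _ := by gcongr

end Crest.Agent.X212.Tl47
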