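import Crest.Agent.X212.Tl47.Cp
import Crest.Agent.X212.Rf65.Ec
import Crest.Agent.X212.Dec35.Tl

/-!
# Row 212, P-TAIL (helper47): one rate of decay for all flat limits
-/

set_option autoImplicit false
set_option linter.unusedSectionVars false
noncomputable section
open scoped Manifold ContDiff Topology InnerProductSpace
open MeasureTheory Set Function Filter Real

namespace Crest.Agent.X212.Tl47
open An Nd18 Cyf70 Rdc90 Bki64 Pj41 Eqv71 Tmp64 Neck67 Sob92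
open Cay24 (Mv wn mv)
open Rf65 (PY)

theorem cj_le {κ κ' : Type} [Fintype κ] [Fintype κ'] [DecidableEq κ] [DecidableEq κ']
    {u : CL (Eu κ) (Eu κ')} {p : En κ} {q : En κ'} (h : CIso u p q) (ξ : HS κ) : ‖cj u ξ‖ ≤ ‖ξ‖ := by
  have e : trn u ∘L u = p := by rw [← ad_trn]; exact h.src
  have e' : trn p ∘L p = p := by
    conv_lhs => enter [1]; rw [← e, trn_comp, trn_trn]
    rw [ContinuousLinearMap.comp_assoc, h.idem, e]
  have k1 : ‖cj u ξ‖ ^ 2 = ⟪ξ, cj p ξ⟫_ℝ := by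
    rw [← real_inner_self_eq_norm_sq, inner_cj, cj_cj, e]
  have k2 : ‖cj p ξ‖ ^ 2 = ⟪ξ, cj p ξ⟫_ℝ := by
    rw [← real_inner_self_eq_norm_sq, inner_cj, cj_cj, e']
  have := real_inner_le_norm ξ (cj p ξ)
  refine (pow_le_pow_iff_left₀ (norm_nonneg _) (norm_nonneg _) two_ne_zero).1 ?_
  nlinarith [sq_nonneg (‖ξ‖ - ‖cj p ξ‖)]

theorem alg' {n : Type} [Fintype n] {d p w t q : En n} (h : d + w ∘L p - p ∘L w = 0) (h1 : q = p)
    (h2 : p * t = t) (h3 : t * p = t) : (d + w ∘L p - p ∘L (w + t)) ∘L q = -t := by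
  rw [ContinuousLinearMap.comp_add, ← sub_sub, h, zero_sub, ContinuousLinearMap.neg_comp, h1]
  exact congrArg _ ((congrArg (· * p) h2).trans h3)

variable {E3 : Type} [NormedAddCommGroup E3] [NormedSpace ℝ E3] [FiniteDimensional ℝ E3]
  [MeasurableSpace E3] [BorelSpace E3]
  {H3 : Type} [TopologicalSpace H3] {I3 : ModelWithCorners ℝ E3 H3} [I3.Boundaryless]
  {Y : Type} [TopologicalSpace Y] [ChartedSpace H3 Y] [IsManifold I3 ∞ Y] [T2Space Y]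
  [MeasurableSpace Y] [BorelSpace Y] [SecondCountableTopology Y] [CompactSpace Y]
  {κ : Type} [Fintype κ] {lam : Type} [Fintype lam] {D : YD I3 Y κ lam} {β γ : YC Y κ lam}
  {a : κ → Y → β.m.A} {a' : κ → Y → γ.m.A} {g : Y → CL β.m.V γ.m.V} {b : ℕ} {d d' : ℝ}

theorem stb_eq0 {ξ : Circle} (S : Stb D β γ g ξ) (z : ∀ y, β.Φ y = 0) (z' : ∀ y, γ.Φ y = 0) :
    Eq0 D.Z (cy β) (cy γ) univ fun x => g x.1 :=
  ⟨S.iso, fun x _ a => S.par a x, fun x _ =>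
    (z' _).trans ((congrArg (g x.1) (z _)).trans (map_zero _)).symm, Subsingleton.elim _ _⟩

theorem eq0_le (hβ : Bs D β) (hγ : Bs D γ) (ha : Fo D β a) (ha' : Fo D γ a')
    (e : Eq0 D.Z (cy (bh β a 0)) (cy (bh γ a' 0)) univ fun x => g x.1) :
    (∀ i k y, ‖By D γ a' i k y‖ ≤ ‖By D β a i k y‖) ∧ ∀ k y, ‖Ly D γ a' k y‖ ≤ ‖Ly D β a k y‖ := by
  have sm : Sm I3 g := fun y => sm_slice (t := 0) (e.iso.su (y, 0) trivial)
  have h0 : ∀ i k y, By D γ a' i k y = cj (g y) (By D β a i k y) := fun i k y =>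
    (((Rd78.bas _ _ _ _ D γ hγ.ok hγ.adm).2.2.1 _ _ ha'.sv).2.2 hγ.flat y 0 i k).symm.trans
      ((e.Fg (G := D.G) isOpen_univ hβ.ok.B (Rd78.adm_bh hβ.adm ha so_zero).adm
        (Rd78.adm_bh hγ.adm ha' so_zero).adm (mem_univ (y, 0)) (some i, some k)).trans (congrArg _
          (((Rd78.bas _ _ _ _ D β hβ.ok hβ.adm).2.2.1 _ _ ha.sv).2.2 hβ.flat y 0 i k)))
  have c := fun y => cj_le (e.iso.iso (y, 0) trivial)
  refine ⟨fun i k y => h0 i k y ▸ c y _, fun k y => le_of_eq_of_le (congrArg _ ?_) (c y _)⟩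
  have h1 := Itw.cj (I := I3) (e := D.F.e) (A := Wy β a) (A' := Wy γ a') (fun b => by
    have := e.par (y, 0) trivial (some b)
    rw [sub_eq_zero] at this
    exact (congrArg (· + _) (congrFun (D_some_fst D.F.toPre sm b) (y, 0)).symm).trans this) (sm y)
    (fun b => ha.skW hβ.adm b y) fun b => ha'.skW hγ.adm b y
  have h2 : ∀ b i k, Wz78.nab I3 D.F.e (Ay γ a') b (By D γ a' i k) y =
      cj (g y) (Wz78.nab I3 D.F.e (Ay β a) b (By D β a i k) y) := fun b i k => by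
    rw [funext (h0 i k)]
    exact h1.nab (sa_cj (sm y)).md (Wz78.SA.md (ha.smB hβ.adm i k y)) b
  simp only [Ly, dl, h2, h0 _ _ y, map_sum, map_smul, map_sub, map_neg, map_add]

theorem cl_bh (hβ : Bs D β) (ha : Fo D β a) {k : ℕ} {η : ℝ} (h : ∀ i, D.F.CB k (a i) η)
    (h0 : 0 ≤ η) : Cl D.Z (cy (bh β a 0)) (cy β) (cy β).m.p (fun _ => 1) univ k
      (‖(-opL : CL β.m.A (En (Fin β.m.N)))‖ * η) := by
  have e := Eq0.refl (G := D.G) (admOn_univ.2 hβ.adm.adm)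
  refine ⟨isOpen_univ, e.iso, fun o => (Lb.clm isOpen_univ (-opL) (f := fun x : Y × ℝ =>
    (o.elim 0 fun i => a i x.1 : β.m.A)) ?_).congr isOpen_univ fun x _ => ?_,
    ((Lb.const isOpen_univ 0).mono (by rw [norm_zero]; positivity)).congr isOpen_univ fun x _ => ?_⟩
  · cases o
    exacts [(Lb.const isOpen_univ 0).mono (by simpa), abs_of_nonneg h0 ▸ Rd78.lb_fst (ha.sm _) (h _)]
  · have m : (o.elim 0 fun i => a i x.1 : β.m.A) ∈ (cy β).m.gS x := by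
      cases o
      exacts [zero_mem _, ha.mem _ _]
    exact alg' (e.par x trivial o) (trn_of_sym (hβ.adm.adm.ok.psym x)) (Wz78.g_p m)
      (Wz78.g_p' (m := (cy β).m) hβ.adm.adm.ok m)
  · change cs β.m.J 1 (β.m.p x.1 (β.Φ x.1 + 0)) - β.Φ x.1 = 0
    simp [hβ.zr, cs]

theorem hc_of (hP : PY D b) (hβ : Bs D β) : HC D β :=
  let ⟨ν, r, S⟩ := hP.psc
  have := Fin.subsingleton_iff_le_one.2 hP.b1
  Rd78.hc _ _ _ _ D β hβ _ ν r S

/-- **one Lojasiewicz constant** -/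
theorem lojU (hP : PY D b) : ∃ K, ∀ β, Bs D β → LojK D β K := by
  by_contra! H
  choose β hβ H using fun n : ℕ => H n
  obtain ⟨γ, hγ, u, hu⟩ := cpt (hyperfilter ℕ) (hβ 0).ok (hβ 0).dim hβ
  obtain ⟨K, j, η, hη, hL⟩ := loj (Rd78.bas _ _ _ _) D γ hγ (hc_of hP hγ)
  obtain ⟨ε, e1, e0⟩ := ((Rd3.small (‖(-hsL : CL (En (Fin γ.m.N)) γ.m.A)‖ * 2) hη).and
    self_mem_nhdsWithin).exists
  obtain ⟨n, h1, h2⟩ := ((hu j ε e0).and ((tendsto_natCast_atTop_atTop.mono_left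
    (hyperfilter_le_cofinite.trans Nat.cofinite_eq_atTop.le)).eventually_ge_atTop K)).exists
  have s1 : win Y 0 (1 / 2) ⊆ win Y 0 1 := win_sub (by norm_num)
  obtain ⟨C, c0, hC⟩ := (BB.fixed (F := D.Z.toPre) (l := (⊤ : Filter Unit))
    (S := fun _ => win Y 0 (1 / 2)) (cwin_cpt 0 (1 / 2)) (prod_mono_right (Icc_subset_Ioo
      (by norm_num) (by norm_num))) (.of_forall fun _ => ⟨win_op _ _, win_cw _ _⟩) j h1.iso.su).pos
  obtain ⟨η', e2, e3⟩ := ((Rd3.small (2 ^ j * C * (2 ^ j * C + 1) *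
    ‖(-opL : CL (β n).m.A (En (Fin (β n).m.N)))‖) e0).and self_mem_nhdsWithin).exists
  replace e3 : 0 < η' := e3
  refine H n ⟨j, η', e3, fun a ha hb => ?_⟩
  have A := Rd78.adm_bh (hβ n).adm ha so_zero
  obtain ⟨a', a1, a2, a3⟩ := push (t := 0) hγ.ok A hγ.adm (fun y => (add_zero _).trans ((hβ n).zr y))
    hγ.zr (O := win Y 0 (1 / 2)) (fun y => ⟨trivial, by norm_num, by norm_num⟩) (Rd3.cl_comp ((cl_bh (hβ n) ha hb e3.le).mono
      (win_op _ _) (subset_univ _) le_rfl le_rfl) (h1.mono (win_op _ _) s1 le_rfl le_rfl)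
      (hC.exists.choose_spec).2 hγ.adm.adm.ok.Jsq (by positivity) c0.le)
  obtain ⟨g, a3⟩ : ∃ g : Y → CL (β n).m.V γ.m.V, Stb D (bh (β n) a 0) (bh γ a' 0) g 1 :=
    ⟨_, a3⟩
  have e := stb_eq0 a3 (fun y => (add_zero _).trans ((hβ n).zr y))
    fun y => (add_zero _).trans (hγ.zr y)
  have k1 := eq0_le (hβ n) hγ ha a1 e
  have k2 := eq0_le (g := fun y => ad (g y)) hγ (hβ n) a1 ha (e.symm (G := D.G) (admOn_univ.2 A.adm)
    (admOn_univ.2 (Rd78.adm_bh hγ.adm a1 so_zero).adm))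
  rw [mul_assoc] at e1 e2
  have := hL a' a1 fun k => CB_mono (a2 k)
    ((mul_le_mul_of_nonneg_left (by linarith) (norm_nonneg _)).trans e1)
  simp only [fun i k y => (k1.1 i k y).antisymm (k2.1 i k y),
    fun k y => (k1.2 k y).antisymm (k2.2 k y)] at this
  exact this.trans (mul_le_mul_of_nonneg_right h2 (by positivity))

/-- **one rate for all flat limits** -/
theorem deceU (hP : PY D b) : ∃ d > 0, ∀ β, Bs D β → DR D β d :=
  let ⟨c₀, hc, h⟩ := hP.ps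
  let ⟨K, hK⟩ := lojU hP
  have p : 0 < √(min (min (max K 1)⁻¹ c₀) 2) := by positivity
  ⟨_, by positivity, fun β hβ => dr_of hβ (hc_of hP hβ) p (cvl hβ hc h (hK β hβ))⟩

theorem DR.mono (h : DR D β d) (e : d' ≤ d) : DR D β d' := fun k B hB =>
  (h k B hB).imp fun _ h => ⟨h.1, fun r c p q hpq hN =>
    let ⟨a, h1, h2, h3, h4, u, h5⟩ := h.2 r c p q hpq hN
    ⟨a, h1, h2, h3, h4, u, fun s hs => (h5 s hs).mono (win_op _ _) Subset.rfl le_rfl (by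
      have := le_min (sub_nonneg.2 hs.1) (sub_nonneg.2 hs.2)
      gcongr)⟩⟩

variable {σ T : ℝ} (hβ : Bs D β) (hσ : σ = 1 ∨ σ = -1) {r : ℕ}
include hβ hσ

theorem DR.mv (h : DR D β d) (k : ℕ) : ∃ η > 0, ∃ B, ∀ (c : Cfg (Y × ℝ) (Option κ) lam r) (a : ℝ),
    T + η⁻¹ ≤ a → AdmOn c D.B D.G (univ ×ˢ {s | T < σ * s}) → Eqs D c (univ ×ˢ {s | T < σ * s}) →
    (∀ s, a ≤ s → ∃ u ζ, Cn D c β u ζ (win Y (σ * s) η⁻¹) η) → ∀ s, a ≤ s →
      Mv D β c (wn Y σ s) k B (exp (d * a) * exp (-d * s)) := by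
  obtain ⟨η, p, h⟩ := h k 1 one_pos
  obtain ⟨B, b0, h1, h2⟩ := Cay24.lb_cy hβ.adm k
  let L : β.m.A →L[ℝ] En (Fin β.m.N) := opL
  refine ⟨η, p, B + ‖L‖, fun c a a1 ha he hn s a2 => ?_⟩
  obtain ⟨f, n1, n2, n3, -, u, hu⟩ := h r c (σ * s - (s - a)) (σ * s + (s - a)) (by linarith)
    fun t ht => by
      have sub : win Y t η⁻¹ ⊆ univ ×ˢ {s | T < σ * s} := prod_mono_right fun x hx =>
        show T < σ * x by rcases hσ with rfl | rfl <;> linarith [ht.1, ht.2, hx.1, hx.2]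
      have e : σ * (σ * t) = t := by rcases hσ with rfl | rfl <;> simp
      obtain ⟨u, ζ, k⟩ := e ▸ hn (σ * t) (by rcases hσ with rfl | rfl <;> linarith [ht.1, ht.2])
      exact ⟨ha.mono sub, fun x hx => he x (sub hx), u, ζ, Cl.cls hβ.adm isOpen_Ioo (ha.mono sub) k⟩
  refine ⟨(bh β f 0).W, (bh β f 0).Φ, u, 1, n3, fun o => ?_, (h2.mono (le_add_of_nonneg_right
    (norm_nonneg L))).congr isOpen_univ fun x _ => add_zero _,
    (hu _ ⟨by linarith, by linarith⟩).mono (win_op _ 1) Subset.rfl le_rfl (le_of_eq ?_)⟩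
  · refine (Lb.add isOpen_univ (h1 o) (Lb.clm isOpen_univ L (C := |1|) ?_)).mono (by simp)
    cases o
    exacts [(Lb.const isOpen_univ 0).mono (by simp), Rd78.lb_fst (n1.sm _) (n2 _)]
  · rw [sub_sub_cancel, add_sub_cancel_left, min_self, one_mul, ← exp_add]
    congr 1
    ring

omit hβ in
theorem win_end {s R : ℝ} (h : T + R ≤ s) : win Y (σ * s) R ⊆ univ ×ˢ {s | T < σ * s} :=
  prod_mono_right fun x hx => show T < σ * x by rcases hσ with rfl | rfl <;> linarith [hx.1, hx.2]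

theorem DR.lim (h : DR D β d) {c : Cfg (Y × ℝ) (Option κ) lam r} {ζ : Circle}
    (ha : AdmOn c D.B D.G (univ ×ˢ {s | T < σ * s})) (he : Eqs D c (univ ×ˢ {s | T < σ * s}))
    {u : Y × ℝ → CL c.m.V β.m.V}
    (hu : ∀ k, ∀ η > 0, ∃ T', Cl D.Z c (cy β) u (fun _ => ζ) (univ ×ˢ {s | T' < σ * s}) k η)
    (k : ℕ) : ∃ B C T', ∀ s, T' ≤ s → Mv D β c (wn Y σ s) k B (C * exp (-d * s)) := by
  obtain ⟨η, p, B, h⟩ := h.mv (T := T) (r := r) hβ hσ k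
  obtain ⟨T', h1⟩ := hu ⌈η⁻¹⌉₊ η p
  exact ⟨B, _, max T T' + η⁻¹, h c _ (by simp) ha he fun s hs => ⟨u, ζ, h1.mono (win_op _ _)
    (win_end hσ (by linarith [le_max_right T T'])) le_rfl le_rfl⟩⟩

/-- exponential convergence in one gauge -/
theorem DR.ends (h : DR D β d) (hd : 0 < d) {c : Cfg (Y × ℝ) (Option κ) lam r} {ζ : Circle}
    (ha : AdmOn c D.B D.G (univ ×ˢ {s | T < σ * s})) (he : Eqs D c (univ ×ˢ {s | T < σ * s}))
    {u : Y × ℝ → CL c.m.V β.m.V}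
    (hu : ∀ k, ∀ η > 0, ∃ T', Cl D.Z c (cy β) u (fun _ => ζ) (univ ×ˢ {s | T' < σ * s}) k η) :
    ∃ u, ∀ k, ∃ C, ∀ s, T + 2 ≤ σ * s →
      Cl D.Z c (cy β) u (fun _ => ζ) (win Y s 1) k (C * exp (-d * |s|)) :=
  Cay24.outm hβ.adm hβ.ok hσ hd ha (fun k =>
    let ⟨B, C, T', h⟩ := h.lim hβ hσ ha he hu k
    ⟨B, C, max T' 0, fun s hs => by
      have := h (σ * s) ((le_max_left _ _).trans hs)
      have e := (le_max_right _ _).trans hs
      rcases hσ with rfl | rfl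
      · rw [abs_of_nonneg (by linarith)]; simpa [wn] using this
      · rw [abs_of_nonpos (by linarith)]; simpa [wn] using this⟩) hu

/-- **TAIL** with moving flat limits -/
theorem tailP (hd : 0 < d) (h : ∀ γ, Bs D γ → DR D γ d) {α : Type} {l : Filter α}
    {c : α → Cfg (Y × ℝ) (Option κ) lam r} {Wl : α → β.m.Cn} {Φl : α → Y → β.m.V} {ζ : α → Circle}
    (hc : ∀ᶠ i in l, AdmOn (c i) D.B D.G (univ ×ˢ {s | T < σ * s}) ∧
      Eqs D (c i) (univ ×ˢ {s | T < σ * s}) ∧ Bs D (mv β (Wl i) (Φl i)) ∧ ∃ u, ∀ k, ∀ η > 0, ∃ T',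
        Cl D.Z (c i) (cy (mv β (Wl i) (Φl i))) u (fun _ => ζ i) (univ ×ˢ {s | T' < σ * s}) k η)
    (hw : ∀ k, ∃ B, ∀ᶠ i in l, ∀ a, Lb D.Z.toPre univ k (fun x => Wl i a x.1) B)
    (hn : ∀ η > 0, ∃ T', ∀ᶠ i in l, ∀ s, T' ≤ s → ∃ u ξ, Cn D (c i) β u ξ (win Y (σ * s) η⁻¹) η)
    (hb : ∀ k T', ∃ C, ∀ᶠ i in l, ∀ s ∈ Icc (T + 2) T',
      ∃ u ξ, Cl D.Z (c i) (cy β) u (fun _ => ξ) (wn Y σ s) k C) :
    ∃ v : ∀ i, Y × ℝ → CL (c i).m.V β.m.V,
      (∀ᶠ i in l, ∀ k, ∃ C, ∀ s, T + 2 ≤ s → Cl D.Z (c i) (cy (mv β (Wl i) (Φl i))) (v i)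
        (fun _ => ζ i) (wn Y σ s) k (C * exp (-d * s))) ∧
      ∀ k, ∃ C, ∀ᶠ i in l, ∀ s, T + 2 ≤ s → Cl D.Z (c i) (cy (mv β (Wl i) (Φl i))) (v i)
        (fun _ => ζ i) (wn Y σ s) k (C * exp (-d * s)) := by
  refine Dec35.outF hβ.ok hσ hd (sm_slice_fst hβ.adm.adm.ok.sp 0) (hc.mono
    fun i ⟨a1, a2, a3, u, a4⟩ => ⟨a1, a3.adm, (h _ a3).lim a3 hσ a1 a2 a4, u, a4⟩) hw fun k => ?_
  obtain ⟨η, p, B, h⟩ := (h β hβ).mv (T := T) (r := r) hβ hσ k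
  obtain ⟨B', -, b1, b2⟩ := Cay24.lb_cy hβ.adm k
  obtain ⟨T', h1⟩ := hn η p
  set a := max T T' + η⁻¹
  obtain ⟨C, h2⟩ := hb k a
  refine ⟨max B B', (|C| + 1) * exp (d * a), ?_⟩
  filter_upwards [hc, h1, h2] with i ⟨a1, a2, _⟩ a4 a5 s hs
  have e : 0 < exp (d * a) * exp (-d * s) := by positivity
  rcases le_total s a with e1 | e1
  · obtain ⟨u, ξ, h⟩ := a5 s ⟨hs, e1⟩
    have : 1 ≤ exp (d * a) * exp (-d * s) := by rw [← exp_add]; exact one_le_exp (by nlinarith)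
    exact ⟨β.W, β.Φ, u, ξ, hβ.adm, fun o => (b1 o).mono (le_max_right _ _),
      b2.mono (le_max_right _ _), h.mono h.op Subset.rfl le_rfl (by
        nlinarith [le_abs_self C, abs_nonneg C])⟩
  · obtain ⟨W, Φ, u, ξ, k1, k2, k3, h⟩ := h (c i) a (by simp [a]) a1 a2 (fun s hs => a4 s (by
      linarith [le_max_right T T', inv_pos.2 p])) s e1
    exact ⟨W, Φ, u, ξ, k1, fun o => (k2 o).mono (le_max_left _ _), k3.mono (le_max_left _ _),
      h.mono h.op Subset.rfl le_rfl (by nlinarith [abs_nonneg C])⟩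

end Crest.Agent.X212.Tl47
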