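import Crest.Agent.X212.Rf65.Ec
import Crest.Agent.X212.Bki64.Rig

/-!
# Row 212, P-TAIL (helper47): the leaf on the flat connections near a given one
-/

set_option autoImplicit false
set_option linter.unusedSectionVars false
noncomputable section
open scoped Manifold ContDiff Topology InnerProductSpace
open MeasureTheory Set Function Filter

namespace Crest.Agent.X212.Tl47
open An Nd18 Cyf70 Rdc90 Rf65
open Bki64 (Cn win)

variable {E3 : Type} [NormedAddCommGroup E3] [NormedSpace ℝ E3] [FiniteDimensional ℝ E3]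
  [MeasurableSpace E3] [BorelSpace E3]
  {H3 : Type} [TopologicalSpace H3] {I3 : ModelWithCorners ℝ E3 H3} [I3.Boundaryless]
  {Y : Type} [TopologicalSpace Y] [ChartedSpace H3 Y] [IsManifold I3 ∞ Y] [T2Space Y]
  [MeasurableSpace Y] [BorelSpace Y] [SecondCountableTopology Y] [CompactSpace Y]
  {κ : Type} [Fintype κ] {lam : Type} [Fintype lam] (D : YD I3 Y κ lam)

/-- LEAF NBH: flat connections near `β` are `β + h` with `h` harmonic and small -/
def NbH : Prop := ∀ b, PY D b → ∀ β, Bs D β → ∀ ε > 0, ∃ η > 0, ∀ γ g ξ, Bs D γ →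
  Cn D (cy γ) β g ξ (win Y 0 7) η →
    ∃ h, Har D β h ∧ (∀ k y, ‖h k y‖ ≤ ε) ∧ D.Eqv γ (bh β h 0)

/-- LEAF IDF: fixed limits are isolated among fixed limits -/
def IdF : Prop := ∀ b, PY D b → ∀ β, Bs D β → ∃ ε > 0, ∀ h, Har D β h →
  (∀ k y, ‖h k y‖ ≤ ε) → dz D (bh β h 0) = 0 ∨ dz D (bh β h 0) = 3 ∨ b = 0 → h = 0

/-- LEAF IDM: the harmonic forms along a moving limit -/
def IdM : Prop := PY D 1 → ∀ β h (l₀ : ℝ), Bs D β → Har D β h → h ≠ 0 →
  dz D (bh β (l₀ • h) 0) = 1 → ∀ ε > 0, ∃ η > 0, ∀ h', Har D (bh β (l₀ • h) 0) h' →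
    (∀ k y, ‖h' k y‖ ≤ η) → ∃ l, |l - l₀| ≤ ε ∧ bh (bh β (l₀ • h) 0) h' 0 = bh β (l • h) 0

end Crest.Agent.X212.Tl47
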