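import Crest.Agent.X212.Tl47.Un
import Crest.Agent.X212.Pat85.Tr
import Crest.Agent.X212.Bki64.Frz
import Crest.Agent.X212.Bki64.Lm
import Crest.Agent.X212.Nck90.Rig0

/-!
# Row 212, P-TAIL (helper47): compactness of the flat connections, one rate for all of them
-/

set_option autoImplicit false
set_option linter.unusedSectionVars false
noncomputable section
open scoped Manifold ContDiff Topology InnerProductSpace
open MeasureTheory Set Function Filter Real

namespace Crest.Agent.X212.Tl47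
open An Nd18 Cyf70 Rdc90 Bki64 Pj41 Eqv71 Tmp64 Neck67 Sob92
open Cmp73 hiding cov
open Wz78 (nab)

variable {E3 : Type} [NormedAddCommGroup E3] [NormedSpace ℝ E3] [FiniteDimensional ℝ E3]
  [MeasurableSpace E3] [BorelSpace E3]
  {H3 : Type} [TopologicalSpace H3] {I3 : ModelWithCorners ℝ E3 H3} [I3.Boundaryless]
  {Y : Type} [TopologicalSpace Y] [ChartedSpace H3 Y] [IsManifold I3 ∞ Y] [T2Space Y]
  [MeasurableSpace Y] [BorelSpace Y] [SecondCountableTopology Y] [CompactSpace Y]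
  {κ : Type} [Fintype κ] {lam : Type} [Fintype lam] {D : YD I3 Y κ lam} {β γ : YC Y κ lam}
  {α : Type}

variable (D) in
/-- the constant family of backgrounds -/
def zg (𝒰 : Ultrafilter α) : Gs (IC I3) (IC I3) (Y × ℝ) (Option κ) lam fun _ : α => Y × ℝ :=
  ⟨𝒰, fun _ => D.B, fun _ => D.G, D.B, D.G, fun _ => D.G, fun _ => .refl _, ∅⟩

theorem zg_ok (𝒰 : Ultrafilter α) (hD : D.OK) (h3 : Module.finrank ℝ E3 = 3) : (zg D 𝒰).OK :=
  ⟨by simp [Module.finrank_prod, h3], fun _ => hD.B, fun _ => hD.G, hD.B, hD.G,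
    fun _ => hD.G, finite_empty, fun _ _ => .of_forall fun _ => trivial,
    fun _ => Pj41.FRel.refl _ isOpen_univ, fun _ _ _ _ _ _ _ => rfl, fun _ _ _ => rfl, fun _ => rfl,
    fun _ _ _ _ => rfl, fun a => ⟨fun _ _ => MB.vf (.of_forall (D.Z.sm a)), fun _ => tendsto_const_nhds⟩,
    fun a b k => Cv.fixed' (D.Z.c_sm a b k), fun a => Cv.fixed' (hD.G.con.sm a)⟩

/-- **the flat connections are compact** -/
theorem cpt (𝒰 : Ultrafilter α) (hD : D.OK) (h3 : Module.finrank ℝ E3 = 3) {β : α → YC Y κ lam}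
    (hβ : ∀ n, Bs D (β n)) : ∃ γ, Bs D γ ∧ ∃ u : ∀ n, Y × ℝ → CL (β n).m.V γ.m.V,
      ∀ k, CZ D.Z 𝒰 (fun _ => win Y 0 1) k (fun n => cy (β n)) (cy γ) u fun _ _ => 1 := by
  have L : (E3 × ℝ) ≃L[ℝ] EuclideanSpace ℝ (Fin 4) :=
    .ofFinrankEq (by simp [Module.finrank_prod, h3])
  have cv := Pat85.cvxOn_prod (I := IC I3) (J := I3) L (.refl (Y × ℝ)) isOpen_univ convex_univ
    (subset_univ _) (fun _ _ => contMDiffAt_id) fun _ _ => contMDiffAt_id
  rw [univ_prod_univ, OpenPartialHomeomorph.refl_apply, image_id] at cv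
  have ok := zg_ok 𝒰 hD h3
  have ha : ∀ n, (cy (β n)).Adm D.B D.G := fun n => (hβ n).adm.adm
  have f0 : ∀ n x s, (cy (β n)).m.Fg D.Z (cy (β n)).W x s = 0 := fun n x s => by
    rw [(hβ n).flat x]; rfl
  obtain ⟨γ, u, L⟩ := Pat85.ga (c := fun n => cy (β n)) (S := ∅) ok ha cv (by simp) Subset.rfl
    (by simp) (fun x s => (Wt.zero fun n a => (con_adW (ha n).conn).sm a).congr fun n x => f0 n x s)
    fun x => (Wt.zero fun n a => (ha n).conn.cc.sm a).congr fun n x => (hβ n).zr _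
  have hΦ : ∀ x, γ.Φ x = 0 := fun x => tendsto_nhds_unique (L.Φ.pt x id)
    (tendsto_const_nhds.congr fun n => ((congrArg (u n x) ((hβ n).zr _)).trans (map_zero _)).symm)
  have hF : ∀ x s, γ.m.Fg D.Z γ.W x s = 0 := fun x s =>
    tendsto_nhds_unique ((L.Fg ok ha s).cv.pt x id) (tendsto_const_nhds.congr fun n =>
      ((congrArg (cj (u n x)) (f0 n x s)).trans (map_zero _)).symm)
  obtain ⟨v, -, -, h1⟩ := (cyD D).exists_frz hD.B L.adm ordConnected_univ (mem_univ 0)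
    (fun y t _ a => hF _ _) fun y t _ => by rw [funext hΦ]; simp [nab]
  have h2 : (frz 0 γ).Adm D.B D.G := (cyD D).adm_sq contDiff_const L.adm
  have hγ : D.Adm (slc γ) := ⟨by rwa [cy_slc], fun y => frz_none 0 (y, 0)⟩
  rw [univ_prod_univ] at h1
  have h4 : Eq0 D.Z γ (cy (slc γ)) univ v := ⟨h1.iso, fun x hx a => by
    have := h1.par x hx a
    rwa [(inv_frz 0 γ).Wi a x.1 x.2 0] at this, h1.Φ, h1.z⟩
  refine ⟨slc γ, ⟨hD, h3, hγ, fun y => hΦ _, fun x => PiLp.ext fun s => ?_⟩,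
    fun n x => v x ∘L u n x, fun k => ?_⟩
  · exact (h4.Fg (G := D.G) isOpen_univ hD.B L.adm hγ.adm trivial s).trans
      ((congrArg (cj (v x)) (hF x s)).trans (map_zero _))
  · have o : ∀ᶠ _n in (𝒰 : Filter α), IsOpen (win Y 0 1) := .of_forall fun _ => win_op 0 1
    have c1 : CvC D.Z 𝒰 (fun n => cy (β n)) γ u ∅ᶜ := CvC.of_cv isClosed_empty.isOpen_compl
      (fun x hx => let ⟨O, a, b, e⟩ := L.iso x hx; ⟨O, a.mem_nhds b, e⟩) L.A
      ((L.Φ.sub (Cv.fixed' L.adm.sm)).congr (fun _ _ => .of_forall fun q => by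
        rw [dP, Circle.coe_one, cs_one]; rfl) fun _ _ => (sub_self _).symm)
    exact ((c1.cz (cwin_cpt 0 1) (by simp) (win_op 0 1) (win_cw 0 1) k).comp (G := D.G)
      (fun _ hε => .of_forall fun _ => cl_of_eq0 h4 (win_op 0 1) hε.le)
      (Fx.fixed ((admOn_univ.2 L.adm).mono (subset_univ _)) (cwin_cpt 0 1)
        (.of_forall fun _ => ⟨win_op 0 1, win_cw 0 1⟩)) (fx_cy hγ o) (BB.const o _)).congr
      (.of_forall fun _ _ _ => ⟨rfl, (mul_one _).symm⟩)

theorem cb_sl {N : Type} [NormedAddCommGroup N] [NormedSpace ℝ N] {F : Pre I3 Y κ}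
    {O : Set (Y × ℝ)} {t C : ℝ} (hO : ∀ y, (y, t) ∈ O) :
    ∀ {j : ℕ} {f : Y × ℝ → N}, Lb (cylP F) O j f C → F.CB j (fun y => f (y, t)) C
  | 0, _, h => CB_zero.2 fun y => h.le (hO y)
  | _ + 1, f, h => CB_succ.2 ⟨fun y => h.le (hO y), fun a => by
      have := cb_sl hO (h.D (some a))
      rwa [show (fun y => (cylP F).D (some a) f (y, t)) = F.D a fun y => f (y, t) from
        funext fun y => D_some_at F (h.md (hO y)) a] at this⟩

theorem alg {V W : Type} [NormedAddCommGroup V] [NormedSpace ℝ V] [NormedAddCommGroup W]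
    [NormedSpace ℝ W] (d u e : V →L[ℝ] W) (a t : W →L[ℝ] W) :
    d + (a + t) ∘L u - e = d + a ∘L u - e + t ∘L u := by
  rw [ContinuousLinearMap.add_comp]; abel

/-- a close configuration is a small variation -/
theorem push (hD : D.OK) (hβ : D.Adm β) (hγ : D.Adm γ) (z : ∀ y, β.Φ y = 0) (z' : ∀ y, γ.Φ y = 0)
    {u : Y × ℝ → CL (cy β).m.V (cy γ).m.V} {ζ : Y × ℝ → Circle} {O : Set (Y × ℝ)} {k : ℕ}
    {η t : ℝ} (h0 : ∀ y, (y, t) ∈ O) (h : Cl D.Z (cy β) (cy γ) u ζ O k η) :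
    ∃ a, Fo D γ a ∧ (∀ i, D.F.CB k (a i) (‖(-hsL : CL (En (Fin γ.m.N)) γ.m.A)‖ * η)) ∧
      Stb D β (bh γ a 0) (fun y => u (y, t)) 1 := by
  have sm : Sm I3 fun y => u (y, t) := fun y => sm_slice (h.iso.su _ (h0 y))
  have i : Iso0 (IC I3) (cy β).m (cy γ).m univ fun x => u (x.1, t) :=
    ⟨fun x _ => sm_fst sm x, fun x _ => h.iso.iso _ (h0 x.1), fun x _ => h.iso.J _ (h0 x.1),
      fun x _ => h.iso.ρ _ (h0 x.1), fun x _ => h.iso.j _ (h0 x.1)⟩
  obtain ⟨a, a1, a2, -, -, a5⟩ := Rd3.exists_vr hD.B hD.G hβ.adm hγ.adm i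
  have sv : Sv D γ a 0 := ⟨a1, a2, contMDiff_const, fun _ => map_zero _⟩
  have e : ∀ b y s, cov D.Z (cy β) (cy γ) (fun x => u (x.1, t)) (some b) (y, s) =
      cov D.Z (cy β) (cy γ) u (some b) (y, t) := fun b y s =>
    congrArg (fun v => v + (cy γ).W (some b) (y, t) ∘L u (y, t) - u (y, t) ∘L (cy β).W (some b) (y, t))
      ((congrFun (D_some_fst D.F.toPre sm b) (y, s)).trans
        (D_some_at D.F.toPre (h.iso.su _ (h0 y)).md b).symm)
  refine ⟨sl γ a t, Rd78.fo_sl sv t, fun b => ?_, i, fun o x => ?_, fun y => ?_⟩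
  · refine (funext fun y => ?_ : (fun y => (-hsL : CL (En (Fin γ.m.N)) γ.m.A)
      (dA D.Z (cy β) (cy γ) u (some b) (y, t))) = sl γ a t b) ▸
        cb_sl h0 ((h.A (some b)).clm h.op (-hsL))
    have e1 : dA D.Z (cy β) (cy γ) u (some b) (y, t) = -opL (a (y, t) (some b)) := by
      rw [dA, ((e b y t).symm.trans (a5 _ _) :), ContinuousLinearMap.neg_comp,
        ContinuousLinearMap.comp_assoc, ← ad_trn, (i.iso (y, t) trivial).tgt,
        ← ContinuousLinearMap.mul_def, Wz78.g_p' hγ.adm.ok ((Spn45.p1_iff.1 (a2 _)).1 _)]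
    exact (congrArg (-hsL : CL (En (Fin γ.m.N)) γ.m.A) e1).trans ((map_neg _ _).trans ((neg_neg _).trans (Wz78.hsL_opL _)))
  · have : cov D.Z (cy β) (cy (bh γ (sl γ a t) 0)) (fun x => u (x.1, t)) o x =
        cov D.Z (cy β) (cy γ) (fun x => u (x.1, t)) o x +
          opL (o.elim 0 fun b => a (x.1, t) (some b)) ∘L u (x.1, t) := by
      exact alg _ _ _ _ _
    refine this.trans ?_
    cases o with
    | none =>
      rw [cov, show D.Z.D none (fun x => u (x.1, t)) x = 0 from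
        congrFun (D_none_fst D.F.toPre sm) x, show (cy γ).W none x = 0 from hγ.tmp _,
        show (cy β).W none x = 0 from hβ.tmp _, Option.elim_none, map_zero]
      simp
      rfl
    | some b => exact add_eq_zero_iff_eq_neg.2 (((e b x.1 x.2).trans (e b x.1 t).symm).trans (a5 _ _))
  · change cs γ.m.J 1 (u (y, t) (β.Φ y)) = γ.Φ y + 0
    simp [z, z', cs]
    exact map_zero _

end Crest.Agent.X212.Tl47
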