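import Crest.Agent.X212.Tl47.Lj
import Crest.Agent.X212.Wl34.Ccl
import Crest.Agent.X212.Nfo63.Loc
import Crest.Agent.X212.Pat85.Fj
import Crest.Agent.X212.Pte3.Bas

/-!
# Row 212, P-DEC (helper47): solutions on parts decay with one rate
-/

set_option autoImplicit false
set_option linter.unusedSectionVars false
noncomputable section
open scoped Manifold ContDiff Topology InnerProductSpace
open MeasureTheory Set Function Filter Real

namespace Crest.Agent.X212.Tl47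
open An Nd18 Cyf70 Rdc90 Bki64 Pj41 Eqv71 Tmp64 Neck67 Sob92
open Wrd81 (SameN)

section gen
variable {E : Type} [NormedAddCommGroup E] [NormedSpace ℝ E] [FiniteDimensional ℝ E]
  [MeasurableSpace E] [BorelSpace E]
  {HM : Type} [TopologicalSpace HM] {I : ModelWithCorners ℝ E HM} [I.Boundaryless]
  {Z : Type} [TopologicalSpace Z] [ChartedSpace HM Z] [IsManifold I ∞ Z]
  [MeasurableSpace Z] [BorelSpace Z] [T2Space Z] [SecondCountableTopology Z]
  {E3 : Type} [NormedAddCommGroup E3] [NormedSpace ℝ E3] [FiniteDimensional ℝ E3]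
  [MeasurableSpace E3] [BorelSpace E3]
  {H3 : Type} [TopologicalSpace H3] {I3 : ModelWithCorners ℝ E3 H3} [I3.Boundaryless]
  {Y : Type} [TopologicalSpace Y] [ChartedSpace H3 Y] [IsManifold I3 ∞ Y] [T2Space Y]
  [MeasurableSpace Y] [BorelSpace Y] [SecondCountableTopology Y] [CompactSpace Y]
  {κ : Type} [Fintype κ] {lam : Type} [Fintype lam] {D : YD I3 Y κ lam} {β : YC Y κ lam} {r : ℕ}
  {B : Base Z (Option κ) lam} {G G' : Geo I Z (Option κ) lam} {K : Nk D B G} {K' : Nk D B G'}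
  {c : Cfg Z (Option κ) lam r} {σ T d : ℝ} {ζ : Circle}

theorem gRel_same (e : SameN K K') : GRel D.B D.G B G' K.ψ K.ψ.source :=
  ⟨(e.src ▸ K'.rel :).congr e.ψ.symm, (nk_gRel K).P, (nk_gRel K).o, (nk_gRel K).l, K.il.symm,
    fun a x hx => (K'.a a x (e.src ▸ hx)).symm.trans (congrArg _ (e.ψ hx))⟩

theorem adm_same (e : SameN K K') (hc : c.Adm B G') : AdmOn (K.pb c) D.B D.G (univ ×ˢ K.J) :=
  K.src ▸ (gRel_same e).admOn_iff.2 ((admOn_univ.2 hc).mono (subset_univ _))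

theorem eqs_same (e : SameN K K') {S : Set ℝ} (hS : S ⊆ K.J) (h : ∀ z ∈ K.ψ.target, K.tm z ∈ S →
    Wz78.dir I G'.F.e c.m.ρ c.W c.Φ z = 0 ∧ c.m.p2 B z (c.m.Fg G'.F c.W z) = c.m.mu B z (c.Φ z) (c.Φ z)) :
    Eqs D (K.pb c) (univ ×ˢ S) := fun z hz => by
  have hs := K.mem_src.2 (hS hz.2)
  have g := (gRel_same e).fr
  obtain ⟨a, b⟩ := h (K.ψ z) (K.ψ.map_source hs) (K.tm_ψ z hs ▸ hz.2)
  have e1 : (K.pb c).m.Fg D.Z (K.pb c).W z = c.m.Fg G'.F c.W (K.ψ z) := g.Fg hs c.W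
  have e2 : D.B.sd z = B.sd (K.ψ z) := by
    funext s t
    simp only [Base.sd, Base.st, Base.a2, K.o _ _ _ _ z hs, K.P _ _ z hs]
  have e3 : (K.pb c).m.p2 D.B z = c.m.p2 B (K.ψ z) := congrArg (idx · _) e2
  refine ⟨(g.dir hs (fun _ => rfl) (fun _ => rfl) (.of_forall fun _ => rfl)).trans a, ?_⟩
  rw [Md.mu, e1, e3]
  exact b

/-- exponential convergence at an end -/
theorem DR.elim (h : DR D β d) (hβ : Bs D β) (hd : 0 < d) {l : Filter ℝ} (hσ : σ = 1 ∨ σ = -1)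
    (e : ∀ S, S ∈ l ↔ ∃ T, {s | T < σ * s} ⊆ S) (ha : c.Adm B G)
    (hs : Eqs D (K.pb c) (univ ×ˢ {s | T < σ * s})) (H : K.Lim c β ζ l) : K.ELim d c β ζ l := by
  obtain ⟨u, H⟩ := H
  replace ha := Nck90.adm_pb K ha
  obtain ⟨S₁, a1, a2, -⟩ := H 0 1 one_pos
  obtain ⟨T, hT⟩ := (e _).1 (inter_mem ((e _).2 ⟨T, Subset.rfl⟩) a1)
  have hJ := (hT.trans inter_subset_right).trans a2
  have ha' := ha.mono (prod_mono_right hJ)
  have op : ∀ T : ℝ, IsOpen {s : ℝ | T < σ * s} := fun T => isOpen_lt (by fun_prop) (by fun_prop)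
  obtain ⟨v, hv⟩ := h.ends hβ hσ hd ha' (fun x hx => hs x ⟨trivial, (hT hx.2).1⟩) fun k η p =>
    let ⟨S, b1, b2, b3⟩ := H k η p; let ⟨T', b4⟩ := (e _).1 b1
    ⟨T', (cl_of_cls hβ.adm (ha.mono (prod_mono_right b2)) b3).mono (isOpen_univ.prod (op _))
      (prod_mono_right b4) le_rfl le_rfl⟩
  obtain ⟨C, hC⟩ := hv 0
  obtain ⟨R, r1, r2⟩ := ((eventually_ge_atTop (T + 2)).and (eventually_forall_ge_atTop.2
    ((tendsto_id.const_mul_atTop hd).eventually (Brk64.ev_exp one_pos C)))).exists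
  have sub : {s | R < σ * s} ⊆ {s | T < σ * s} := fun s (hs : R < σ * s) => show T < _ by linarith
  refine ⟨v, _, (e _).2 ⟨R, Subset.rfl⟩, sub.trans hJ, Cl.cls hβ.adm (op R)
    (ha'.mono (prod_mono_right sub)) (.of_local (isOpen_univ.prod (op R)) fun x hx => ?_),
    fun k => (hv k).imp fun C h s hs => ?_⟩
  · have : R < σ * x.2 := hx.2
    have k := hC x.2 (by linarith)
    refine ⟨win Y x.2 1, v, _, ⟨trivial, by simp⟩, .rfl, .rfl, k.mono k.op Subset.rfl le_rfl ?_⟩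
    have := r2 |x.2| (this.le.trans (by rcases hσ with rfl | rfl <;> simp [le_abs_self, neg_le_abs]))
    rw [neg_mul, mul_comm]
    exact this.le
  · have : R < σ * s := hs ⟨by simp, by simp⟩
    exact Cl.cls hβ.adm isOpen_Ioo (ha'.mono (prod_mono_right (hs.trans sub))) (h s (by linarith))

theorem cls_con {c : Cfg (Y × ℝ) (Option κ) lam r} {u : Y × ℝ → CL c.m.V β.m.V} {S : Set ℝ} {k : ℕ}
    {η : ℝ} (z : ∀ y, β.Φ y = 0) (h : D.Cls c β u ζ S k η) : D.Cls c.con β u 1 S k η :=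
  ⟨h.op, h.m, h.A, fun w _ x hx => by
    rw [show YD.dP c.con β u 1 = fun _ => 0 from funext fun x => by
      change cs β.m.J _ (u x 0) - β.Φ x.1 = 0
      rw [z, map_zero, Mod61.cs_zero, sub_zero]]
    exact ((Lb.const isOpen_univ 0).Dw w le_rfl x trivial).trans
      (norm_zero.trans_le ((norm_nonneg _).trans (h.P [] (Nat.zero_le _) x hx)))⟩

end gen

open M Mod61 Nk89 Cht98 Rf65 Pte3
open An.Job (SolOn StrOn isClopen_un)

variable {Wi : Type} {X : Mf 4} {A κ lam : Type} [Fintype A] [Fintype κ] [Fintype lam]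
  [DecidableEq lam] {M : Mark X A κ} {W : World M} {N : ML M lam} {Λ : Lns W N}
  {A' h : Type} [Fintype A'] [DecidableEq A'] [Fintype h] {r n : ℕ}
  {J : Job Wi Λ A' h r n} {c : M.Cl} {σ : Cel A'} {p : Prt A A' h} {a : A} {b : Bool}
  {t : Prm A} {q₀ : Wi →₀ ℝ} {y₀ : J.Obc c}

theorem sg_pm (b : Bool) : -pm b = 1 ∨ -pm b = -1 := by cases b <;> simp [pm]

theorem mem_dr (b : Bool) (S : Set ℝ) : S ∈ dr b ↔ ∃ T, {s | T < -pm b * s} ⊆ S := by
  cases b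
  · exact (atTop_basis_Ioi.mem_iff).trans (by simp [Ioi, pm])
  · refine (atBot_basis_Iio.mem_iff).trans
      ⟨fun ⟨a, _, h⟩ => ⟨-a, fun s hs => h ?_⟩, fun ⟨a, h⟩ => ⟨-a, trivial, fun s hs => h ?_⟩⟩
    · simpa [pm] using hs
    · simpa [pm, lt_neg] using hs

theorem K_J (hJ : J.OK) (ha : Act J.m c a (some b) t) :
    (J.K c a _ t ha).J = {s | 0 < -pm b * s} := by
  rw [Nk.J, (Nck90.K_end hJ ha).1, (Nck90.K_end hJ ha).2]
  cases b <;> simp [Jv, pm]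

theorem K_dp (hJ : J.OK) (ha : Act J.m c a (some b) t) {d s : ℝ} (h : d ≤ -pm b * s) :
    s ∈ Dp (J.K c a _ t ha).p (J.K c a _ t ha).q d := by
  rw [(Nck90.K_end hJ ha).1, (Nck90.K_end hJ ha).2]
  cases b <;> simpa [Dp, pm, le_neg] using h

theorem act (H : PG J c σ p) (h : SolOn p σ q₀ y₀) (i : Ed c) :
    Act J.m c i.1 (some i.2) (J.Θ y₀.s) :=
  have o := Job.ov_of h.cell h.inf
  ⟨i.1.2.2, H.ok.memBr H.mem o, H.ok.memO H.mem o, i.1.2.1⟩

/-- far out the solutions solve the unperturbed equations -/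
theorem eqs_job (H : PG J c σ p) (pj : PJ J c) {α : Type} {l : Filter α} {q : α → Wi →₀ ℝ}
    {y : α → J.Obc c} (cv : St.Cv l q q₀) (hs : Tendsto (fun k => (y k).s) l (𝓝 y₀.s))
    (h0 : SolOn p σ q₀ y₀) (sol : ∀ᶠ k in l, SolOn p σ (q k) (y k)) {i : Ed c} (hi : i ∈ EdP c p.P)
    (ha : Act J.m c i.1 (some i.2) t) : ∃ T, ∀ᶠ k in l,
      Eqs (J.xs i.1).D ((J.K c i.1 _ t ha).pb (y k).x) (univ ×ˢ {s | T < -pm i.2 * s}) := by
  classical
  obtain ⟨S, h1, -⟩ := cv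
  obtain ⟨d, hd⟩ := Nfo63.loc (l := comap Subtype.val l) (T := S ∪ q₀.support)
    (s := fun k : {k // SolOn p σ (q k) (y k)} => (y k).s) (q := fun k => q k) H.ok H.mem
    (fun k => ⟨k.2.cell, k.2.inf⟩) (hs.comp tendsto_comap) h0.cell (h0.inf.ge i.1.2.1)
    (fun k => act H k.2 i) (Pat85.dj H.ok)
    (fun k => H.ok.ν_end H.mem (Job.ov_of k.2.cell k.2.inf) i.1.2) fun w hw k =>
      (h1 k w fun e => hw (Finset.mem_union_left _ e)).trans
        (Finsupp.notMem_support_iff.1 fun e => hw (Finset.mem_union_right _ e))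
  refine ⟨max d 0, (sol.and (eventually_comap.1 hd)).mono fun k ⟨k1, k2⟩ => ?_⟩
  have e := H.ok.end_eq ha (act H k1 i)
  refine eqs_same e (fun s hs => by rw [K_J H.ok ha]; exact (le_max_right d 0).trans_lt hs)
    fun z hz (hz' : max d 0 < _) => ?_
  have := k2 ⟨k, k1⟩ rfl (y k).x z (K_dp H.ok _ (e.tm hz ▸ ((le_max_left _ _).trans_lt hz').le))
  rw [show (J.xs i.1).q (q k) = 0 by simp [Xs.q, (pj.nil _ i.1.2).2], (pj.nil _ i.1.2).1.pt] at this
  refine ⟨?_, sub_eq_zero.1 ((sub_zero _).symm.trans ((congrArg _ this.2.symm).trans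
    (k1.C z (H.ok.end_sub ha H.pok.pc hi hz))))⟩
  by_cases k : z ∈ W.un c p.P'
  · exact (sub_zero _).symm.trans ((congrArg _ this.1.symm).trans (k1.D z k))
  · have := ((isClopen_un (W := W) fun o k => H.pok.pc o (H.pok.sub k)).1.isOpen_compl.eventually_mem
      k).mono k1.off
    refine Finset.sum_eq_zero fun a _ => ?_
    rw [Wz78.nab, dv_congr this, dv_const, this.self_of_nhds]
    simp

theorem bs_job (H : PG J c σ p) (pj : PJ J c) (h : SolOn p σ q₀ y₀) {i : Ed c}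
    (hi : i ∈ EdP c p.P) : Bs (J.xs i.1).D (y₀.β i.1 i.2) :=
  let ⟨b, py⟩ := pj.py _ i.1.2
  (Wl34.wlJ J i.1 _ b (H.ok.xs _).1.yd (pj.nil _ i.1.2).1 py).1 _ (h.crit _ i.1.2 _ hi)

/-- one rate for all walls -/
theorem rate (pj : PJ J c) : ∃ d > 0, ∀ a : cylW c, ∀ β, Bs (J.xs a).D β → DR (J.xs a).D β d := by
  choose d h1 h2 using fun a : cylW c => (pj.py a a.2).elim fun _ => deceU
  obtain ⟨e, h3, h4⟩ := exists_pos_le h1
  exact ⟨e, h3, fun a β h => (h2 a β h).mono (h4 a)⟩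

theorem elim_job (H : PG J c σ p) (pj : PJ J c) {d : ℝ} (hd : 0 < d)
    (hr : ∀ a : cylW c, ∀ β, Bs (J.xs a).D β → DR (J.xs a).D β d) (h : SolOn p σ q₀ y₀) {i : Ed c}
    (hi : i ∈ EdP c p.P) (ha : Act J.m c i.1 (some i.2) (J.Θ y₀.s)) :
    (J.K c i.1 _ _ ha).ELim d y₀.x (y₀.β i.1 i.2) (y₀.ζ i.1 i.2) (dr i.2) :=
  let ⟨_, k⟩ := eqs_job (l := (⊤ : Filter Unit)) (q := fun _ => q₀) (y := fun _ => y₀) H pj
    ⟨∅, fun _ _ _ => rfl, fun _ => tendsto_const_nhds⟩ tendsto_const_nhds h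
    (.of_forall fun _ => h) hi ha
  have b := bs_job H pj h hi
  (hr _ _ b).elim b hd (sg_pm _) (mem_dr _) h.adm (eventually_top.1 k ()) (h.lim _ _ ha hi)

variable (J c) in
/-- **P-DEC** -/
theorem decP : DecP J c := fun _ pj => by
  obtain ⟨d, hd, hr⟩ := rate pj
  refine ⟨d / 2, half_pos hd, fun δ hδ σ p U _ μ H q y h => ?_⟩
  have G : PG J c σ p := ⟨H.ok, H.mem, H.pok⟩
  have o := Job.ov_of h.cell h.inf
  have e : δ < d := hδ.2.trans_lt (half_lt_self hd)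
  refine ⟨⟨H.ok.memBr H.mem o, H.ok.memO H.mem o, ⟨h.adm.ok, h.adm.conn, contMDiff_const,
    fun _ => map_zero _⟩, fun i => bs_job G pj h, fun i hi ha => ⟨d, e, ?_⟩, h.int⟩,
    fun i hi ha => ⟨d, e, elim_job G pj hd hr h hi ha⟩⟩
  obtain ⟨u, S, h1, h2, h3, h4⟩ := elim_job G pj hd hr h hi ha
  have z := (bs_job G pj h hi).zr
  exact ⟨u, S, h1, h2, cls_con z h3, fun k => (h4 k).imp fun C h s hs => cls_con z (h s hs)⟩

end Crest.Agent.X212.Tl47
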