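import Crest.Agent.X212.End14.Cyl
import Crest.Agent.X212.Wrd81.LocN
import Crest.Agent.X212.Bki64.Lim

/-!
# Row 212, P-TAIL (helper47): the leaf on local limits in the coordinates of a neck
-/

set_option autoImplicit false
set_option linter.unusedSectionVars false
noncomputable section
open scoped Manifold ContDiff Topology
open Set Function Filter

namespace Crest.Agent.X212.Tl47
open An Nd18 Cyf70
open Bki64 (CZ)

variable {E : Type} [NormedAddCommGroup E] [NormedSpace ℝ E] [FiniteDimensional ℝ E]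
  [MeasurableSpace E] [BorelSpace E]
  {HM : Type} [TopologicalSpace HM] (I : ModelWithCorners ℝ E HM) [I.Boundaryless]
  (M : Type) [TopologicalSpace M] [ChartedSpace HM M] [IsManifold I ∞ M]
  [MeasurableSpace M] [T2Space M] [BorelSpace M] [SecondCountableTopology M]
  {E3 : Type} [NormedAddCommGroup E3] [NormedSpace ℝ E3] [FiniteDimensional ℝ E3]
  [MeasurableSpace E3] [BorelSpace E3]
  {H3 : Type} [TopologicalSpace H3] {I3 : ModelWithCorners ℝ E3 H3} [I3.Boundaryless]
  {Y : Type} [TopologicalSpace Y] [ChartedSpace H3 Y] [IsManifold I3 ∞ Y] [T2Space Y]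
  [MeasurableSpace Y] [BorelSpace Y] [SecondCountableTopology Y] [CompactSpace Y]
  {κ : Type} [Fintype κ] {lam : Type} [Fintype lam] (D : YD I3 Y κ lam) (r : ℕ)

/-- LEAF MID: local limits converge on bounded parts of a neck -/
def Mid : Prop := ∀ (α : Type) (l : Filter α) (B : Base M (Option κ) lam)
  (G : α → Geo I M (Option κ) lam) (G₀ : Geo I M (Option κ) lam) (K : Nk D B G₀) (O : Set M)
  (c : α → Cfg M (Option κ) lam r) (c₀ : Cfg M (Option κ) lam r)
  (u : ∀ i, M → CL (c i).m.V c₀.m.V) (ζ : α → Circle),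
  ULim I B l O (fun i => (G i).F.e) c c₀ u ζ → IsOpen O → K.ψ.target ⊆ O → c₀.Adm B G₀ →
  (∀ᶠ i in l, (c i).m.OK I B ∧ ∃ K' : Nk D B (G i), Wrd81.SameN K K') → ∀ a b, Icc a b ⊆ K.J →
  ∀ j, CZ D.Z l (fun _ => univ ×ˢ Ioo a b) j (fun i => K.pb (c i)) (K.pb c₀)
    (fun i x => u i (K.ψ x)) fun i _ => ζ i

end Crest.Agent.X212.Tl47
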